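import Vale.Agent.P052.Defs

namespace Vale.Agent.P052

theorem chkSq_all : allB chkSq 416 = true := by decide +kernel
theorem chkSym_all : allB chkSym 416 = true := by decide +kernel
theorem chkWa_all : allB chkWa 416 = true := by decide +kernel
theorem chkWb_all : allB chkWb 416 = true := by decide +kernel

end Vale.Agent.P052
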