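import Vale.Agent.P052.Defs

namespace Vale.Agent.P052

theorem chkCl_0 : allFrom chkCl 0 132 = true := by decide +kernel
theorem chkCl_1 : allFrom chkCl 132 37 = true := by decide +kernel
theorem chkCl_2 : allFrom chkCl 169 23 = true := by decide +kernel
theorem chkCl_3 : allFrom chkCl 192 15 = true := by decide +kernel
theorem chkCl_4 : allFrom chkCl 207 15 = true := by decide +kernel
theorem chkCl_5 : allFrom chkCl 222 13 = true := by decide +kernel
theorem chkCl_6 : allFrom chkCl 235 11 = true := by decide +kernel
theorem chkCl_7 : allFrom chkCl 246 9 = true := by decide +kernel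
theorem chkCl_8 : allFrom chkCl 255 9 = true := by decide +kernel
theorem chkCl_9 : allFrom chkCl 264 8 = true := by decide +kernel
theorem chkCl_10 : allFrom chkCl 272 7 = true := by decide +kernel
theorem chkCl_11 : allFrom chkCl 279 7 = true := by decide +kernel
theorem chkCl_12 : allFrom chkCl 286 7 = true := by decide +kernel
theorem chkCl_13 : allFrom chkCl 293 6 = true := by decide +kernel
theorem chkCl_14 : allFrom chkCl 299 6 = true := by decide +kernel
theorem chkCl_15 : allFrom chkCl 305 5 = true := by decide +kernel
theorem chkCl_16 : allFrom chkCl 310 5 = true := by decide +kernel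
theorem chkCl_17 : allFrom chkCl 315 4 = true := by decide +kernel
theorem chkCl_18 : allFrom chkCl 319 2 = true := by decide +kernel

end Vale.Agent.P052
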