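import Vale.Agent.P052.Data

/-
Kernel friendly recursive checkers (written with the primitive Nat operations).
-/

namespace Vale.Agent.P052

/-- Strict application: evaluates the Nat argument before continuing. -/
noncomputable def st {α : Type} (n : Nat) (g : Nat → α) : α :=
  Nat.rec (motive := fun _ => α) (g 0) (fun m _ => g (Nat.succ m)) n

theorem st_eq {α : Type} (n : Nat) (g : Nat → α) : st n g = g n := by
  cases n <;> rfl

/-- Sum of `f 0, ..., f (n-1)`. -/
noncomputable def sumTo (f : Nat → Nat) (n : Nat) : Nat :=
  Nat.rec (motive := fun _ => Nat) 0 (fun k ih => Nat.add ih (f k)) n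

/-- All of `p 0, ..., p (n-1)` hold. -/
noncomputable def allB (p : Nat → Bool) (n : Nat) : Bool :=
  Nat.rec (motive := fun _ => Bool) true
    (fun k ih => Bool.rec (motive := fun _ => Bool) false ih (p k)) n

/-- All of `p lo, ..., p (lo+n-1)` hold. -/
noncomputable def allFrom (p : Nat → Bool) (lo n : Nat) : Bool :=
  allB (fun k => p (Nat.add lo k)) n

/-- The spaced encoding of row `i`. -/
noncomputable def spr (i : Nat) : Nat :=
  sumTo (fun j => Nat.mul (adT i j) (Nat.pow 512 j)) 416

/-- The spaced all ones vector. -/
noncomputable def uu : Nat := sumTo (fun j => Nat.pow 512 j) 416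

/-- The check for row `i` of the identity `A^2 = 80 + 16 A + 20 J`. -/
noncomputable def chkSq (i : Nat) : Bool :=
  Nat.beq (sumTo (fun k => Nat.mul (adT i k) (spr k)) 416)
    (Nat.add (Nat.add (Nat.mul 80 (Nat.pow 512 i)) (Nat.mul 16 (spr i))) (Nat.mul 20 uu))

/-- Symmetry and irreflexivity of `adT` for row `i`. -/
noncomputable def chkSym (i : Nat) : Bool :=
  Bool.rec (motive := fun _ => Bool) false
    (allB (fun j => Nat.beq (adT i j) (adT j i)) i) (Nat.beq (adT i i) 0)

/-- `wa + 1` as a natural number. -/
noncomputable def wa1 (k : Nat) : Nat :=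
  Bool.rec (motive := fun _ => Nat)
    (Bool.rec (motive := fun _ => Nat) 0 3 (Nat.ble (Nat.succ k) 352)) 1 (Nat.ble (Nat.succ k) 320)

/-- `wb + 1` as a natural number. -/
noncomputable def wb1 (k : Nat) : Nat :=
  Bool.rec (motive := fun _ => Nat)
    (Bool.rec (motive := fun _ => Nat) 0 2 (Nat.ble (Nat.succ k) 384)) 1 (Nat.ble (Nat.succ k) 352)

/-- `A wa = 20 wa` in shifted form, row `i`. -/
noncomputable def chkWa (i : Nat) : Bool :=
  Nat.beq (sumTo (fun k => Nat.mul (adT i k) (wa1 k)) 416) (Nat.add (Nat.mul 20 (wa1 i)) 80)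

/-- `A wb = 20 wb` in shifted form, row `i`. -/
noncomputable def chkWb (i : Nat) : Bool :=
  Nat.beq (sumTo (fun k => Nat.mul (adT i k) (wb1 k)) 416) (Nat.add (Nat.mul 20 (wb1 i)) 80)

def H1 (a : Nat) : Nat := Nat.mod (Nat.mul (Nat.succ a) 11400714819323198485) 18446744073709551616
def H2 (a : Nat) : Nat := Nat.mod (Nat.mul (Nat.succ a) 14029467366897019727) 18446744073709551616

/-- `noCl f k c = true` certifies that the set coded by the bits of `c` above position 64
contains no clique with `k + 1` vertices. -/
noncomputable def noCl (f : Nat) : Nat → Nat → Bool :=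
  Nat.rec (motive := fun _ => Nat → Nat → Bool) (fun _ _ => false)
    (fun _ ih k cand =>
     st cand fun cand =>
      Bool.rec (motive := fun _ => Bool) true
       (Nat.rec (motive := fun _ => Bool) false
            (fun k' _ =>
              st (idx cand) fun a =>
              st (Nat.xor cand (Nat.add (Nat.pow 2 (Nat.add a 64)) (H1 a))) fun c' =>
                 Bool.rec (motive := fun _ => Bool) false (ih (Nat.succ k') c')
                  (ih k' (Nat.xor (Nat.land c' (rowT a)) (H2 a))))
            k)
        (Nat.ble 18446744073709551616 cand))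
    f

/-- No 5-clique among the neighbours of `a` with smaller index (restricted to first 321 vertices
automatically since `a < 321`). -/
noncomputable def chkCl (a : Nat) : Bool :=
  noCl 500 4 (Nat.xor (Nat.land (rowT a) (Nat.sub (Nat.pow 2 (Nat.add a 64)) 1)) (H2 a))

end Vale.Agent.P052
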