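import Mathlib
import Vale.Agent.P052.Check1
import Vale.Agent.P052.Check2

/-
Soundness of the kernel checks: natural number statements about the table.
-/

namespace Vale.Agent.P052

open Finset

theorem sumTo_succ (f : ℕ → ℕ) (n : ℕ) : sumTo f (n + 1) = sumTo f n + f n := rfl

theorem sumTo_eq (f : ℕ → ℕ) (n : ℕ) : sumTo f n = ∑ k ∈ range n, f k := by
  induction n with
  | zero => rfl
  | succ n ih => rw [sumTo_succ, ih, sum_range_succ]

theorem allB_spec {p : ℕ → Bool} {n : ℕ} (h : allB p n = true) : ∀ k, k < n → p k = true := by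
  induction n with
  | zero => intro k hk; omega
  | succ n ih =>
    have h' : (Bool.rec (motive := fun _ => Bool) false (allB p n) (p n)) = true := h
    cases hp : p n with
    | false => rw [hp] at h'; exact absurd h' (by simp)
    | true =>
      rw [hp] at h'
      intro k hk
      rcases Nat.lt_succ_iff_lt_or_eq.mp hk with hk | rfl
      · exact ih h' k hk
      · exact hp

theorem adT_le_one (i j : ℕ) : adT i j ≤ 1 := by
  have : adT i j < 2 := Nat.mod_lt _ (by norm_num)
  omega

/-! ### uniqueness of base `b` expansions -/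

theorem sum_digits_lt (b : ℕ) (hb : 0 < b) :
    ∀ (n : ℕ) (f : ℕ → ℕ), (∀ j, j < n → f j < b) → ∑ j ∈ range n, f j * b ^ j < b ^ n := by
  intro n
  induction n with
  | zero => intro f _; simp
  | succ n ih =>
    intro f hf
    rw [sum_range_succ]
    have h1 := ih f (fun j hj => hf j (by omega))
    have h2 := hf n (by omega)
    have h3 : (f n + 1) * b ^ n ≤ b * b ^ n := Nat.mul_le_mul_right _ h2
    have h4 : b ^ (n + 1) = b * b ^ n := by rw [pow_succ]; ring
    rw [h4]
    nlinarith

theorem digits_unique (b : ℕ) (hb : 0 < b) :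
    ∀ (n : ℕ) (f g : ℕ → ℕ), (∀ j, j < n → f j < b) → (∀ j, j < n → g j < b) →
      ∑ j ∈ range n, f j * b ^ j = ∑ j ∈ range n, g j * b ^ j → ∀ j, j < n → f j = g j := by
  intro n
  induction n with
  | zero => intro f g _ _ _ j hj; omega
  | succ n ih =>
    intro f g hf hg h j hj
    rw [sum_range_succ, sum_range_succ] at h
    have h1 := sum_digits_lt b hb n f (fun j hj => hf j (by omega))
    have h2 := sum_digits_lt b hb n g (fun j hj => hg j (by omega))
    have hpos : 0 < b ^ n := pow_pos hb n
    have h3 : (∑ j ∈ range n, f j * b ^ j) = ∑ j ∈ range n, g j * b ^ j := by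
      have e1 := congrArg (fun x => x % b ^ n) h
      simp only [Nat.add_mul_mod_self_right, Nat.mod_eq_of_lt h1, Nat.mod_eq_of_lt h2] at e1
      exact e1
    have h4 : f n * b ^ n = g n * b ^ n := by omega
    have h5 : f n = g n := Nat.eq_of_mul_eq_mul_right hpos h4
    rcases Nat.lt_succ_iff_lt_or_eq.mp hj with hj | rfl
    · exact ih f g (fun j hj => hf j (by omega)) (fun j hj => hg j (by omega)) h3 j hj
    · exact h5

/-! ### the square identity -/

theorem spr_eq (k : ℕ) : spr k = ∑ j ∈ range 416, adT k j * 512 ^ j := sumTo_eq _ _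

theorem uu_eq : uu = ∑ j ∈ range 416, 512 ^ j := sumTo_eq _ _

theorem sum_expand (n b i : ℕ) (hi : i < n) (f : ℕ → ℕ) :
    ∑ j ∈ range n, ((if j = i then 80 else 0) + 16 * f j + 20) * b ^ j
      = 80 * b ^ i + 16 * (∑ j ∈ range n, f j * b ^ j) + 20 * ∑ j ∈ range n, b ^ j := by
  rw [mul_sum, mul_sum]
  simp_rw [add_mul]
  rw [sum_add_distrib, sum_add_distrib]
  have e3 : ∑ j ∈ range n, (if j = i then 80 else 0) * b ^ j = 80 * b ^ i := by
    simp_rw [ite_mul, zero_mul]
    rw [sum_ite_eq' (range n) i]
    simp [hi]
  rw [e3]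
  congr 1
  congr 1
  refine sum_congr rfl fun j _ => ?_
  ring

theorem sq_entry {i j : ℕ} (hi : i < 416) (hj : j < 416) :
    ∑ k ∈ range 416, adT i k * adT k j = (if j = i then 80 else 0) + 16 * adT i j + 20 := by
  have h := allB_spec chkSq_all i hi
  have h2 : sumTo (fun k => Nat.mul (adT i k) (spr k)) 416
      = Nat.add (Nat.add (Nat.mul 80 (Nat.pow 512 i)) (Nat.mul 16 (spr i))) (Nat.mul 20 uu) :=
    Nat.eq_of_beq_eq_true h
  have h3 : ∑ j ∈ range 416, (∑ k ∈ range 416, adT i k * adT k j) * 512 ^ j
      = ∑ j ∈ range 416, ((if j = i then 80 else 0) + 16 * adT i j + 20) * 512 ^ j := by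
    have e1 : ∑ j ∈ range 416, (∑ k ∈ range 416, adT i k * adT k j) * 512 ^ j
        = sumTo (fun k => Nat.mul (adT i k) (spr k)) 416 := by
      rw [sumTo_eq]
      simp_rw [sum_mul]
      rw [sum_comm]
      refine sum_congr rfl fun k _ => ?_
      show _ = adT i k * spr k
      rw [spr_eq, mul_sum]
      refine sum_congr rfl fun j _ => ?_
      ring
    have e2 : ∑ j ∈ range 416, ((if j = i then 80 else 0) + 16 * adT i j + 20) * 512 ^ j
        = Nat.add (Nat.add (Nat.mul 80 (Nat.pow 512 i)) (Nat.mul 16 (spr i))) (Nat.mul 20 uu) := by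
      show _ = 80 * 512 ^ i + 16 * spr i + 20 * uu
      rw [spr_eq, uu_eq]
      exact sum_expand 416 512 i hi (adT i)
    rw [e1, e2, h2]
  refine digits_unique 512 (by norm_num) 416 _ _ ?_ ?_ h3 j hj
  · intro j _
    calc ∑ k ∈ range 416, adT i k * adT k j ≤ ∑ _k ∈ range 416, 1 := by
          refine sum_le_sum fun k _ => ?_
          have h1 := adT_le_one i k
          have h2 := adT_le_one k j
          nlinarith
      _ = 416 := by simp
      _ < 512 := by norm_num
  · intro j _
    have h1 := adT_le_one i j
    split_ifs <;> omega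

theorem ad_symm {i j : ℕ} (hi : i < 416) (hj : j < 416) : adT i j = adT j i := by
  have key : ∀ {i j : ℕ}, i < 416 → j < i → adT i j = adT j i := by
    intro i j hi hj
    have h := allB_spec chkSym_all i hi
    have h' : (Bool.rec (motive := fun _ => Bool) false
        (allB (fun j => Nat.beq (adT i j) (adT j i)) i) (Nat.beq (adT i i) 0)) = true := h
    cases hb : Nat.beq (adT i i) 0 with
    | false => rw [hb] at h'; exact absurd h' (by simp)
    | true =>
      rw [hb] at h'
      exact Nat.eq_of_beq_eq_true (allB_spec h' j hj)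
  rcases lt_trichotomy i j with h | h | h
  · exact (key hj h).symm
  · rw [h]
  · exact key hi h

theorem ad_self {i : ℕ} (hi : i < 416) : adT i i = 0 := by
  have h := allB_spec chkSym_all i hi
  have h' : (Bool.rec (motive := fun _ => Bool) false
      (allB (fun j => Nat.beq (adT i j) (adT j i)) i) (Nat.beq (adT i i) 0)) = true := h
  cases hb : Nat.beq (adT i i) 0 with
  | false => rw [hb] at h'; exact absurd h' (by simp)
  | true => exact Nat.eq_of_beq_eq_true hb

theorem row_sum {i : ℕ} (hi : i < 416) : ∑ k ∈ range 416, adT i k = 100 := by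
  have h := sq_entry hi hi
  rw [ad_self hi] at h
  simp only [if_true, mul_zero, add_zero] at h
  rw [← (by omega : 80 + 20 = 100), ← h]
  refine sum_congr rfl fun k hk => ?_
  rw [ad_symm (mem_range.mp hk) hi]
  have := adT_le_one i k
  interval_cases adT i k <;> rfl

theorem wa_row {i : ℕ} (hi : i < 416) :
    ∑ k ∈ range 416, adT i k * wa1 k = 20 * wa1 i + 80 := by
  have h := allB_spec chkWa_all i hi
  have h2 := Nat.eq_of_beq_eq_true h
  rw [sumTo_eq] at h2
  exact h2

theorem wb_row {i : ℕ} (hi : i < 416) :
    ∑ k ∈ range 416, adT i k * wb1 k = 20 * wb1 i + 80 := by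
  have h := allB_spec chkWb_all i hi
  have h2 := Nat.eq_of_beq_eq_true h
  rw [sumTo_eq] at h2
  exact h2

/-! ### the clique check -/

theorem testBit_tag (x h u : ℕ) (hh : h < 2 ^ 64) :
    (x ^^^ h).testBit (u + 64) = x.testBit (u + 64) := by
  rw [Nat.testBit_xor]
  have : h.testBit (u + 64) = false := by
    apply Nat.testBit_lt_two_pow
    calc h < 2 ^ 64 := hh
      _ ≤ 2 ^ (u + 64) := Nat.pow_le_pow_right (by norm_num) (by omega)
  simp [this]

theorem testBit_two_pow_add (a h u : ℕ) (hh : h < 2 ^ 64) :
    (2 ^ (a + 64) + h).testBit (u + 64) = decide (a = u) := by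
  have e : 2 ^ (a + 64) + h = 2 ^ 64 * 2 ^ a + h := by rw [pow_add]; ring
  rw [e, Nat.testBit_two_pow_mul_add _ hh]
  have h1 : ¬ (u + 64 < 64) := by omega
  rw [if_neg h1, Nat.add_sub_cancel, Nat.testBit_two_pow]

theorem H1_lt (a : ℕ) : H1 a < 2 ^ 64 := Nat.mod_lt _ (by norm_num)
theorem H2_lt (a : ℕ) : H2 a < 2 ^ 64 := Nat.mod_lt _ (by norm_num)

theorem noCl_sound (f : ℕ) : ∀ (k c : ℕ), noCl f k c = true → ∀ Q : Finset ℕ, Q.card = k + 1 →
    (∀ u ∈ Q, c.testBit (u + 64) = true) →
    (∀ u ∈ Q, ∀ v ∈ Q, u ≠ v → (rowT u).testBit (v + 64) = true) → False := by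
  induction f with
  | zero =>
    intro k c h
    have h0 : noCl 0 k c = false := rfl
    rw [h0] at h
    exact absurd h (by simp)
  | succ f ih =>
    intro k c h Q hQ hmem hcl
    have h0 : noCl (f + 1) k c = st c (fun cand =>
        Bool.rec (motive := fun _ => Bool) true
       (Nat.rec (motive := fun _ => Bool) false
            (fun k' _ =>
              st (idx cand) fun a =>
              st (Nat.xor cand (Nat.add (Nat.pow 2 (Nat.add a 64)) (H1 a))) fun c' =>
                 Bool.rec (motive := fun _ => Bool) false (noCl f (Nat.succ k') c')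
                  (noCl f k' (Nat.xor (Nat.land c' (rowT a)) (H2 a))))
            k)
        (Nat.ble 18446744073709551616 cand)) := rfl
    rw [h0, st_eq] at h
    cases hb : Nat.ble 18446744073709551616 c with
    | false =>
      have hne : Q.Nonempty := by
        rw [← Finset.card_pos]; omega
      obtain ⟨u, hu⟩ := hne
      have h1 := hmem u hu
      have hlt : c < 2 ^ (u + 64) := by
        have h2 : ¬ (18446744073709551616 ≤ c) := by
          intro h3
          have := Nat.ble_eq_true_of_le h3
          rw [hb] at this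
          exact absurd this (by simp)
        have h3 : (2 : ℕ) ^ 64 ≤ 2 ^ (u + 64) := Nat.pow_le_pow_right (by norm_num) (by omega)
        have h4 : (2 : ℕ) ^ 64 = 18446744073709551616 := by norm_num
        omega
      rw [Nat.testBit_lt_two_pow hlt] at h1
      exact absurd h1 (by simp)
    | true =>
      rw [hb] at h
      cases k with
      | zero =>
        have h1 : false = true := h
        exact absurd h1 (by simp)
      | succ k' =>
        have h1 : (st (idx c) fun a =>
              st (Nat.xor c (Nat.add (Nat.pow 2 (Nat.add a 64)) (H1 a))) fun c' =>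
                 Bool.rec (motive := fun _ => Bool) false (noCl f (Nat.succ k') c')
                  (noCl f k' (Nat.xor (Nat.land c' (rowT a)) (H2 a)))) = true := h
        rw [st_eq, st_eq] at h1
        set a := idx c with ha
        set c' := Nat.xor c (Nat.add (Nat.pow 2 (Nat.add a 64)) (H1 a)) with hc'
        have hc'bit : ∀ u, u ≠ a → c'.testBit (u + 64) = c.testBit (u + 64) := by
          intro u hu
          have e : c' = c ^^^ (2 ^ (a + 64) + H1 a) := rfl
          rw [e, Nat.testBit_xor, testBit_two_pow_add a (H1 a) u (H1_lt a)]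
          have : decide (a = u) = false := by simp [Ne.symm hu]
          simp [this]
        cases hY : noCl f k' (Nat.xor (Nat.land c' (rowT a)) (H2 a)) with
        | false => rw [hY] at h1; exact absurd h1 (by simp)
        | true =>
          rw [hY] at h1
          have hX : noCl f (Nat.succ k') c' = true := h1
          by_cases haQ : a ∈ Q
          · refine ih k' _ hY (Q.erase a) ?_ ?_ ?_
            · rw [Finset.card_erase_of_mem haQ]; omega
            · intro u hu
              have hu1 := Finset.mem_of_mem_erase hu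
              have hu2 := Finset.ne_of_mem_erase hu
              have e : Nat.xor (Nat.land c' (rowT a)) (H2 a) = (c' &&& rowT a) ^^^ H2 a := rfl
              rw [e, testBit_tag _ _ _ (H2_lt a), Nat.testBit_and, hc'bit u hu2, hmem u hu1,
                hcl a haQ u hu1 (Ne.symm hu2)]
              rfl
            · intro u hu v hv huv
              exact hcl u (Finset.mem_of_mem_erase hu) v (Finset.mem_of_mem_erase hv) huv
          · refine ih (Nat.succ k') c' hX Q hQ ?_ hcl
            intro u hu
            have hne : u ≠ a := fun e => haQ (e ▸ hu)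
            rw [hc'bit u hne]
            exact hmem u hu

theorem adT_eq_one_iff (i j : ℕ) : adT i j = 1 ↔ (rowT i).testBit (j + 64) = true := by
  rw [Nat.testBit_eq_decide_div_mod_eq]
  simp only [decide_eq_true_eq]
  have e : adT i j = rowT i / 2 ^ (j + 64) % 2 := by
    show (rowT i >>> (j + 64)) % 2 = _
    rw [Nat.shiftRight_eq_div_pow]
  rw [e]

theorem chunk_use {lo n a : ℕ} (h : allFrom chkCl lo n = true) (h1 : lo ≤ a) (h2 : a < lo + n) :
    chkCl a = true := by
  have h3 := allB_spec (p := fun k => chkCl (Nat.add lo k)) h (a - lo) (by omega)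
  have e : Nat.add lo (a - lo) = a := by
    show lo + (a - lo) = a
    omega
  simp only [e] at h3
  exact h3

theorem chkCl_all (a : ℕ) (ha : a < 321) : chkCl a = true := by
  by_cases h0 : a < 132
  · exact chunk_use chkCl_0 (by omega) (by omega)
  by_cases h1 : a < 169
  · exact chunk_use chkCl_1 (by omega) (by omega)
  by_cases h2 : a < 192
  · exact chunk_use chkCl_2 (by omega) (by omega)
  by_cases h3 : a < 207
  · exact chunk_use chkCl_3 (by omega) (by omega)
  by_cases h4 : a < 222
  · exact chunk_use chkCl_4 (by omega) (by omega)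
  by_cases h5 : a < 235
  · exact chunk_use chkCl_5 (by omega) (by omega)
  by_cases h6 : a < 246
  · exact chunk_use chkCl_6 (by omega) (by omega)
  by_cases h7 : a < 255
  · exact chunk_use chkCl_7 (by omega) (by omega)
  by_cases h8 : a < 264
  · exact chunk_use chkCl_8 (by omega) (by omega)
  by_cases h9 : a < 272
  · exact chunk_use chkCl_9 (by omega) (by omega)
  by_cases h10 : a < 279
  · exact chunk_use chkCl_10 (by omega) (by omega)
  by_cases h11 : a < 286
  · exact chunk_use chkCl_11 (by omega) (by omega)
  by_cases h12 : a < 293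
  · exact chunk_use chkCl_12 (by omega) (by omega)
  by_cases h13 : a < 299
  · exact chunk_use chkCl_13 (by omega) (by omega)
  by_cases h14 : a < 305
  · exact chunk_use chkCl_14 (by omega) (by omega)
  by_cases h15 : a < 310
  · exact chunk_use chkCl_15 (by omega) (by omega)
  by_cases h16 : a < 315
  · exact chunk_use chkCl_16 (by omega) (by omega)
  by_cases h17 : a < 319
  · exact chunk_use chkCl_17 (by omega) (by omega)
  exact chunk_use chkCl_18 (by omega) (by omega)

/-- There is no clique on six vertices among the first 321 vertices. -/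
theorem no_six_clique (Q : Finset ℕ) (hQ : Q.card = 6) (hlt : ∀ u ∈ Q, u < 321)
    (hcl : ∀ u ∈ Q, ∀ v ∈ Q, u ≠ v → adT u v = 1) : False := by
  have hne : Q.Nonempty := by rw [← Finset.card_pos]; omega
  set a := Q.max' hne with ha
  have haQ : a ∈ Q := Q.max'_mem hne
  have hchk := chkCl_all a (hlt a haQ)
  have hcl' : ∀ u ∈ Q, ∀ v ∈ Q, u ≠ v → (rowT u).testBit (v + 64) = true :=
    fun u hu v hv huv => (adT_eq_one_iff u v).mp (hcl u hu v hv huv)
  refine noCl_sound 500 4 _ hchk (Q.erase a) ?_ ?_ ?_
  · rw [Finset.card_erase_of_mem haQ]; omega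
  · intro u hu
    have hu1 := Finset.mem_of_mem_erase hu
    have hu2 := Finset.ne_of_mem_erase hu
    have hlt2 : u < a := lt_of_le_of_ne (Q.le_max' u hu1) hu2
    have e : Nat.xor (Nat.land (rowT a) (Nat.sub (Nat.pow 2 (Nat.add a 64)) 1)) (H2 a)
        = (rowT a &&& (2 ^ (a + 64) - 1)) ^^^ H2 a := rfl
    rw [e, testBit_tag _ _ _ (H2_lt a), Nat.testBit_and, hcl' a haQ u hu1 (Ne.symm hu2),
      Nat.testBit_two_pow_sub_one]
    simp
    omega
  · intro u hu v hv huv
    exact hcl' u (Finset.mem_of_mem_erase hu) v (Finset.mem_of_mem_erase hv) huv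

end Vale.Agent.P052
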