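import Mathlib
import Vale.Agent.P052.Math1

/-
Matrix algebra over the reals and the final geometric assembly.
-/

namespace Vale.Agent.P052

open Matrix Finset

theorem sum_wa1 : sumTo wa1 416 = 416 := by decide +kernel
theorem sum_wb1 : sumTo wb1 416 = 416 := by decide +kernel
theorem sum_wa1_sq : sumTo (fun k => Nat.mul (wa1 k) (wa1 k)) 416 = 608 := by decide +kernel
theorem sum_wb1_sq : sumTo (fun k => Nat.mul (wb1 k) (wb1 k)) 416 = 480 := by decide +kernel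
theorem sum_wa1_wb1 : sumTo (fun k => Nat.mul (wa1 k) (wb1 k)) 416 = 416 := by decide +kernel

noncomputable section

/-- adjacency matrix -/
def mA : Matrix (Fin 416) (Fin 416) ℝ := Matrix.of fun i j => ((adT i j : ℕ) : ℝ)
/-- all ones matrix -/
def mJ : Matrix (Fin 416) (Fin 416) ℝ := Matrix.of fun _ _ => 1
def wa : Fin 416 → ℝ := fun k => ((wa1 k : ℕ) : ℝ) - 1
def wb : Fin 416 → ℝ := fun k => ((wb1 k : ℕ) : ℝ) - 1
def mWa : Matrix (Fin 416) (Fin 416) ℝ := vecMulVec wa wa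
def mWb : Matrix (Fin 416) (Fin 416) ℝ := vecMulVec wb wb
def mQ : Matrix (Fin 416) (Fin 416) ℝ :=
  (8 : ℝ) • mA + (32 : ℝ) • (1 : Matrix (Fin 416) (Fin 416) ℝ) - (2 : ℝ) • mJ - mWa - (3 : ℝ) • mWb

theorem cast_sum (f : ℕ → ℕ) :
    ∑ k : Fin 416, ((f k : ℕ) : ℝ) = ((∑ k ∈ range 416, f k : ℕ) : ℝ) := by
  rw [← Fin.sum_univ_eq_sum_range f 416]
  push_cast
  rfl

theorem cast_sum_mul (f g : ℕ → ℕ) :
    ∑ k : Fin 416, ((f k : ℕ) : ℝ) * ((g k : ℕ) : ℝ) = ((∑ k ∈ range 416, f k * g k : ℕ) : ℝ) := by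
  rw [← cast_sum]
  push_cast
  rfl

theorem hAA : mA * mA = (80 : ℝ) • (1 : Matrix (Fin 416) (Fin 416) ℝ) + (16 : ℝ) • mA + (20 : ℝ) • mJ := by
  ext i j
  have h := sq_entry i.2 j.2
  have h' : ∑ k : Fin 416, ((adT i k : ℕ) : ℝ) * ((adT k j : ℕ) : ℝ)
      = ((∑ k ∈ range 416, adT i k * adT k j : ℕ) : ℝ) := by
    rw [← cast_sum]
    push_cast
    rfl
  simp only [Matrix.mul_apply, Matrix.add_apply, Matrix.smul_apply, Matrix.one_apply, smul_eq_mul,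
    mA, mJ, Matrix.of_apply]
  rw [h', h]
  by_cases hij : i = j
  · subst hij
    simp
  · have hij' : (j : ℕ) ≠ i := fun e => hij (Fin.ext e.symm)
    simp [hij, hij']

theorem row_sum_real (i : Fin 416) : ∑ k : Fin 416, ((adT i k : ℕ) : ℝ) = 100 := by
  rw [cast_sum (fun k => adT i k), row_sum i.2]
  norm_num

theorem mA_symm (i j : Fin 416) : mA i j = mA j i := by
  simp only [mA, Matrix.of_apply]
  rw [ad_symm i.2 j.2]

theorem mA_transpose : mAᵀ = mA := by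
  ext i j
  exact mA_symm j i

theorem hAJ : mA * mJ = (100 : ℝ) • mJ := by
  ext i j
  simp only [Matrix.mul_apply, Matrix.smul_apply, smul_eq_mul, mA, mJ, Matrix.of_apply, mul_one]
  rw [row_sum_real]

theorem hJA : mJ * mA = (100 : ℝ) • mJ := by
  ext i j
  simp only [Matrix.mul_apply, Matrix.smul_apply, smul_eq_mul, mA, mJ, Matrix.of_apply, one_mul,
    mul_one]
  rw [← row_sum_real j]
  refine Finset.sum_congr rfl fun k _ => ?_
  rw [ad_symm k.2 j.2]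

theorem hJJ : mJ * mJ = (416 : ℝ) • mJ := by
  ext i j
  simp [Matrix.mul_apply, mJ]

theorem wa_mulVec : mA *ᵥ wa = (20 : ℝ) • wa := by
  ext i
  have h := wa_row i.2
  have h' : ∑ k : Fin 416, ((adT i k : ℕ) : ℝ) * ((wa1 k : ℕ) : ℝ) = 20 * ((wa1 i : ℕ) : ℝ) + 80 := by
    rw [cast_sum_mul (fun k => adT i k) wa1, h]
    push_cast
    ring
  simp only [Matrix.mulVec, dotProduct, Pi.smul_apply, smul_eq_mul, mA, wa, Matrix.of_apply]
  simp_rw [mul_sub, mul_one]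
  rw [Finset.sum_sub_distrib, h', row_sum_real]
  ring

theorem wb_mulVec : mA *ᵥ wb = (20 : ℝ) • wb := by
  ext i
  have h := wb_row i.2
  have h' : ∑ k : Fin 416, ((adT i k : ℕ) : ℝ) * ((wb1 k : ℕ) : ℝ) = 20 * ((wb1 i : ℕ) : ℝ) + 80 := by
    rw [cast_sum_mul (fun k => adT i k) wb1, h]
    push_cast
    ring
  simp only [Matrix.mulVec, dotProduct, Pi.smul_apply, smul_eq_mul, mA, wb, Matrix.of_apply]
  simp_rw [mul_sub, mul_one]
  rw [Finset.sum_sub_distrib, h', row_sum_real]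
  ring

theorem real_sum_wa1 : ∑ k : Fin 416, ((wa1 k : ℕ) : ℝ) = 416 := by
  rw [cast_sum wa1, ← sumTo_eq, sum_wa1]
  norm_num

theorem real_sum_wb1 : ∑ k : Fin 416, ((wb1 k : ℕ) : ℝ) = 416 := by
  rw [cast_sum wb1, ← sumTo_eq, sum_wb1]
  norm_num

theorem real_sum_wa1_sq : ∑ k : Fin 416, ((wa1 k : ℕ) : ℝ) * ((wa1 k : ℕ) : ℝ) = 608 := by
  rw [cast_sum_mul wa1 wa1, ← sumTo_eq]
  have e : sumTo (fun k => wa1 k * wa1 k) 416 = 608 := sum_wa1_sq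
  rw [e]
  norm_num

theorem real_sum_wb1_sq : ∑ k : Fin 416, ((wb1 k : ℕ) : ℝ) * ((wb1 k : ℕ) : ℝ) = 480 := by
  rw [cast_sum_mul wb1 wb1, ← sumTo_eq]
  have e : sumTo (fun k => wb1 k * wb1 k) 416 = 480 := sum_wb1_sq
  rw [e]
  norm_num

theorem real_sum_wa1_wb1 : ∑ k : Fin 416, ((wa1 k : ℕ) : ℝ) * ((wb1 k : ℕ) : ℝ) = 416 := by
  rw [cast_sum_mul wa1 wb1, ← sumTo_eq]
  have e : sumTo (fun k => wa1 k * wb1 k) 416 = 416 := sum_wa1_wb1
  rw [e]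
  norm_num

theorem wa_sum : ∑ k : Fin 416, wa k = 0 := by
  simp only [wa]
  rw [Finset.sum_sub_distrib, real_sum_wa1]
  simp

theorem wb_sum : ∑ k : Fin 416, wb k = 0 := by
  simp only [wb]
  rw [Finset.sum_sub_distrib, real_sum_wb1]
  simp

theorem wa_dot : wa ⬝ᵥ wa = 192 := by
  simp only [dotProduct, wa]
  have : ∀ k : Fin 416, (((wa1 k : ℕ) : ℝ) - 1) * (((wa1 k : ℕ) : ℝ) - 1)
      = ((wa1 k : ℕ) : ℝ) * ((wa1 k : ℕ) : ℝ) - 2 * ((wa1 k : ℕ) : ℝ) + 1 := fun k => by ring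
  simp_rw [this]
  rw [Finset.sum_add_distrib, Finset.sum_sub_distrib, ← Finset.mul_sum, real_sum_wa1_sq, real_sum_wa1]
  simp
  norm_num

theorem wb_dot : wb ⬝ᵥ wb = 64 := by
  simp only [dotProduct, wb]
  have : ∀ k : Fin 416, (((wb1 k : ℕ) : ℝ) - 1) * (((wb1 k : ℕ) : ℝ) - 1)
      = ((wb1 k : ℕ) : ℝ) * ((wb1 k : ℕ) : ℝ) - 2 * ((wb1 k : ℕ) : ℝ) + 1 := fun k => by ring
  simp_rw [this]
  rw [Finset.sum_add_distrib, Finset.sum_sub_distrib, ← Finset.mul_sum, real_sum_wb1_sq, real_sum_wb1]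
  simp
  norm_num

theorem wa_wb_dot : wa ⬝ᵥ wb = 0 := by
  simp only [dotProduct, wa, wb]
  have : ∀ k : Fin 416, (((wa1 k : ℕ) : ℝ) - 1) * (((wb1 k : ℕ) : ℝ) - 1)
      = ((wa1 k : ℕ) : ℝ) * ((wb1 k : ℕ) : ℝ) - ((wa1 k : ℕ) : ℝ) - ((wb1 k : ℕ) : ℝ) + 1 :=
    fun k => by ring
  simp_rw [this]
  rw [Finset.sum_add_distrib, Finset.sum_sub_distrib, Finset.sum_sub_distrib, real_sum_wa1_wb1,
    real_sum_wa1, real_sum_wb1]
  simp

theorem wb_wa_dot : wb ⬝ᵥ wa = 0 := by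
  rw [dotProduct_comm, wa_wb_dot]

theorem J_mulVec (v : Fin 416 → ℝ) (hv : ∑ k : Fin 416, v k = 0) : mJ *ᵥ v = 0 := by
  ext i
  simp [Matrix.mulVec, dotProduct, mJ, hv]

theorem vecMul_A (v : Fin 416 → ℝ) : v ᵥ* mA = mA *ᵥ v := by
  rw [← mulVec_transpose, mA_transpose]

theorem vecMul_J (v : Fin 416 → ℝ) (hv : ∑ k : Fin 416, v k = 0) : v ᵥ* mJ = 0 := by
  ext i
  simp [Matrix.vecMul, dotProduct, mJ, hv]

theorem hAWa : mA * mWa = (20 : ℝ) • mWa := by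
  rw [mWa, mul_vecMulVec, wa_mulVec, smul_vecMulVec]

theorem hWaA : mWa * mA = (20 : ℝ) • mWa := by
  rw [mWa, vecMulVec_mul, vecMul_A, wa_mulVec, vecMulVec_smul]

theorem hAWb : mA * mWb = (20 : ℝ) • mWb := by
  rw [mWb, mul_vecMulVec, wb_mulVec, smul_vecMulVec]

theorem hWbA : mWb * mA = (20 : ℝ) • mWb := by
  rw [mWb, vecMulVec_mul, vecMul_A, wb_mulVec, vecMulVec_smul]

theorem hJWa : mJ * mWa = 0 := by
  rw [mWa, mul_vecMulVec, J_mulVec wa wa_sum, zero_vecMulVec]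

theorem hWaJ : mWa * mJ = 0 := by
  rw [mWa, vecMulVec_mul, vecMul_J wa wa_sum, vecMulVec_zero]

theorem hJWb : mJ * mWb = 0 := by
  rw [mWb, mul_vecMulVec, J_mulVec wb wb_sum, zero_vecMulVec]

theorem hWbJ : mWb * mJ = 0 := by
  rw [mWb, vecMulVec_mul, vecMul_J wb wb_sum, vecMulVec_zero]

theorem hWaWa : mWa * mWa = (192 : ℝ) • mWa := by
  rw [mWa, vecMulVec_mul_vecMulVec, wa_dot, vecMulVec_smul]

theorem hWbWb : mWb * mWb = (64 : ℝ) • mWb := by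
  rw [mWb, vecMulVec_mul_vecMulVec, wb_dot, vecMulVec_smul]

theorem hWaWb : mWa * mWb = 0 := by
  rw [mWa, mWb, vecMulVec_mul_vecMulVec, wa_wb_dot, zero_smul, vecMulVec_zero]

theorem hWbWa : mWb * mWa = 0 := by
  rw [mWa, mWb, vecMulVec_mul_vecMulVec, wb_wa_dot, zero_smul, vecMulVec_zero]

theorem hQQ : mQ * mQ = (192 : ℝ) • mQ := by
  unfold mQ
  simp only [add_mul, mul_add, sub_mul, mul_sub, smul_mul_assoc, mul_smul_comm, one_mul, mul_one,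
    hAA, hAJ, hJA, hJJ, hAWa, hWaA, hAWb, hWbA, hJWa, hWaJ, hJWb, hWbJ, hWaWa, hWbWb, hWaWb, hWbWa,
    smul_zero]
  module

end

end Vale.Agent.P052
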