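import Mathlib
import Vale.Agent.P052.Math2

/-
The 63 dimensional space, the 321 points and the counting argument.
-/

namespace Vale.Agent.P052

open Matrix Finset

noncomputable section

theorem mQ_apply (i j : Fin 416) : mQ i j =
    8 * ((adT i j : ℕ) : ℝ) + 32 * (if i = j then 1 else 0) - 2 - wa i * wa j - 3 * (wb i * wb j) := by
  simp only [mQ, mWa, mWb, mA, mJ, Matrix.sub_apply, Matrix.add_apply, Matrix.smul_apply,
    Matrix.one_apply, smul_eq_mul, vecMulVec_apply, Matrix.of_apply, mul_one]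

theorem mQ_symm (i j : Fin 416) : mQ i j = mQ j i := by
  rw [mQ_apply, mQ_apply, ad_symm i.2 j.2]
  by_cases h : i = j
  · subst h; rfl
  · have h' : j ≠ i := Ne.symm h
    simp only [h, h', if_false]
    ring

theorem mQ_diag (i : Fin 416) : mQ i i = 30 - wa i * wa i - 3 * (wb i * wb i) := by
  rw [mQ_apply, ad_self i.2]
  simp
  norm_num

theorem trace_mQ : mQ.trace = 12096 := by
  simp only [Matrix.trace, Matrix.diag_apply, mQ_diag]
  have h1 : ∑ i : Fin 416, wa i * wa i = 192 := wa_dot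
  have h2 : ∑ i : Fin 416, wb i * wb i = 64 := wb_dot
  rw [Finset.sum_sub_distrib, Finset.sum_sub_distrib, h1, ← Finset.mul_sum, h2]
  simp
  norm_num

def mP : Matrix (Fin 416) (Fin 416) ℝ := (1 / 192 : ℝ) • mQ

theorem hPP : mP * mP = mP := by
  simp only [mP, smul_mul_assoc, mul_smul_comm, hQQ, smul_smul]
  norm_num

theorem trace_mP : mP.trace = 63 := by
  simp only [mP, Matrix.trace_smul, trace_mQ, smul_eq_mul]
  norm_num

def tT : EuclideanSpace ℝ (Fin 416) →ₗ[ℝ] EuclideanSpace ℝ (Fin 416) := Matrix.toEuclideanLin mP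

theorem tT_idem : IsIdempotentElem tT := by
  apply LinearMap.ext
  intro x
  show tT (tT x) = tT x
  simp only [tT, Matrix.toEuclideanLin_apply, Matrix.mulVec_mulVec, hPP]

def sS : Submodule ℝ (EuclideanSpace ℝ (Fin 416)) := LinearMap.range tT

theorem finrank_sS : Module.finrank ℝ sS = 63 := by
  have h := (LinearMap.IsIdempotentElem.isProj_range tT tT_idem).trace
  have h2 : LinearMap.trace ℝ (EuclideanSpace ℝ (Fin 416)) tT = mP.trace := by
    simp only [tT, Matrix.toEuclideanLin_eq_toLin_orthonormal]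
    exact Matrix.trace_toLin_eq _ _
  rw [h2, trace_mP] at h
  have h3 : ((Module.finrank ℝ (LinearMap.range tT) : ℕ) : ℝ) = ((63 : ℕ) : ℝ) := by
    rw [← h]; norm_num
  exact Nat.cast_injective h3

def qv (i : Fin 416) : EuclideanSpace ℝ (Fin 416) := WithLp.toLp 2 (fun k => mQ i k)

theorem qv_mem (i : Fin 416) : qv i ∈ sS := by
  refine ⟨qv i, ?_⟩
  show Matrix.toEuclideanLin mP (qv i) = qv i
  rw [Matrix.toEuclideanLin_apply]
  congr 1
  ext k
  have h := congrFun (congrFun hQQ k) i
  simp only [Matrix.mul_apply, Matrix.smul_apply, smul_eq_mul] at h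
  simp only [Matrix.mulVec, dotProduct, mP, Matrix.smul_apply, smul_eq_mul, qv]
  have e : ∑ x : Fin 416, 1 / 192 * mQ k x * mQ i x = 1 / 192 * ∑ x : Fin 416, mQ k x * mQ x i := by
    rw [Finset.mul_sum]
    refine Finset.sum_congr rfl fun x _ => ?_
    rw [mQ_symm i x]
    ring
  rw [e, h, mQ_symm k i]
  ring

theorem qv_inner (i j : Fin 416) : inner ℝ (qv i) (qv j) = 192 * mQ i j := by
  have h := congrFun (congrFun hQQ i) j
  simp only [Matrix.mul_apply, Matrix.smul_apply, smul_eq_mul] at h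
  rw [← h]
  simp only [qv, PiLp.inner_apply, RCLike.inner_apply, conj_trivial]
  refine Finset.sum_congr rfl fun x _ => ?_
  rw [mQ_symm x j]
  ring

/-- the scaling factor -/
def tt : ℝ := (-1 + Real.sqrt 222) / 13

theorem tt_pos : 0 < tt := by
  have : (1 : ℝ) < Real.sqrt 222 := by
    rw [Real.lt_sqrt (by norm_num)]
    norm_num
  unfold tt
  linarith

theorem tt_eq : 13 * tt ^ 2 + 2 * tt = 17 := by
  have h : Real.sqrt 222 ^ 2 = 222 := Real.sq_sqrt (by norm_num)
  unfold tt
  nlinarith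

/-- inclusion of indices -/
def iota (j : Fin 321) : Fin 416 := Fin.castLE (by norm_num) j

def cc (j : Fin 321) : ℝ := if (j : ℕ) = 320 then tt else 1

theorem cc_pos (j : Fin 321) : 0 < cc j := by
  unfold cc
  split_ifs
  · exact tt_pos
  · exact one_pos

def vec (j : Fin 321) : EuclideanSpace ℝ (Fin 416) := cc j • qv (iota j)

theorem vec_mem (j : Fin 321) : vec j ∈ sS := sS.smul_mem _ (qv_mem _)

theorem wa_small (i : Fin 416) (h : (i : ℕ) < 320) : wa i = 0 := by
  have e : wa1 i = 1 := by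
    have hb : Nat.ble (Nat.succ i) 320 = true := Nat.ble_eq_true_of_le h
    show Bool.rec (motive := fun _ => Nat)
      (Bool.rec (motive := fun _ => Nat) 0 3 (Nat.ble (Nat.succ i) 352)) 1
        (Nat.ble (Nat.succ i) 320) = 1
    rw [hb]
  simp [wa, e]

theorem wb_small (i : Fin 416) (h : (i : ℕ) < 352) : wb i = 0 := by
  have e : wb1 i = 1 := by
    have hb : Nat.ble (Nat.succ i) 352 = true := Nat.ble_eq_true_of_le h
    show Bool.rec (motive := fun _ => Nat)
      (Bool.rec (motive := fun _ => Nat) 0 2 (Nat.ble (Nat.succ i) 384)) 1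
        (Nat.ble (Nat.succ i) 352) = 1
    rw [hb]
  simp [wb, e]

theorem wa_v : wa 320 = 2 := by
  have e : wa1 ((320 : Fin 416) : ℕ) = 3 := by decide +kernel
  simp only [wa, e]
  norm_num

/-- The squared distance in terms of the adjacency function. -/
theorem vec_dist_sq (i j : Fin 321) (hij : i ≠ j) :
    ‖vec i - vec j‖ ^ 2 = 192 * (64 - 16 * ((adT i j : ℕ) : ℝ) * (cc i * cc j)) := by
  have hne : iota i ≠ iota j := by
    intro h
    apply hij
    apply Fin.ext
    exact congrArg (fun x : Fin 416 => (x : ℕ)) h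
  have key : ‖vec i - vec j‖ ^ 2 = 192 * (cc i ^ 2 * mQ (iota i) (iota i)
      - 2 * (cc i * cc j) * mQ (iota i) (iota j) + cc j ^ 2 * mQ (iota j) (iota j)) := by
    rw [norm_sub_sq_real, vec, vec, norm_smul, norm_smul, mul_pow, mul_pow, real_inner_smul_left,
      real_inner_smul_right, ← real_inner_self_eq_norm_sq (qv (iota i)),
      ← real_inner_self_eq_norm_sq (qv (iota j)), qv_inner, qv_inner, qv_inner]
    simp only [Real.norm_eq_abs, sq_abs]
    ring
  have hQij : ∀ a b : Fin 321, (a : ℕ) < 320 → mQ (iota a) (iota b)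
      = 8 * ((adT a b : ℕ) : ℝ) + 32 * (if iota a = iota b then 1 else 0) - 2 := by
    intro a b ha
    rw [mQ_apply, wa_small (iota a) ha, wb_small (iota a) (by simp [iota]; omega)]
    simp [iota]
  have hdiag : ∀ a : Fin 321, (a : ℕ) < 320 → mQ (iota a) (iota a) = 30 := by
    intro a ha
    rw [mQ_diag, wa_small (iota a) ha, wb_small (iota a) (by simp [iota]; omega)]
    norm_num
  have hlast : ∀ a : Fin 321, (a : ℕ) = 320 → mQ (iota a) (iota a) = 26 := by
    intro a ha
    have e : iota a = 320 := by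
      apply Fin.ext
      simp [iota, ha]
    rw [mQ_diag, e, wa_v, wb_small 320 (by decide)]
    norm_num
  have hadjs : ((adT j i : ℕ) : ℝ) = ((adT i j : ℕ) : ℝ) := by
    rw [ad_symm (by have := j.2; omega) (by have := i.2; omega)]
  have hcases : ((i : ℕ) < 320 ∧ (j : ℕ) < 320) ∨ ((i : ℕ) = 320 ∧ (j : ℕ) < 320) ∨
      ((i : ℕ) < 320 ∧ (j : ℕ) = 320) := by
    have h1 := i.2
    have h2 := j.2
    have h3 : (i : ℕ) ≠ j := fun e => hij (Fin.ext e)
    omega
  rw [key]
  rcases hcases with ⟨hi, hj⟩ | ⟨hi, hj⟩ | ⟨hi, hj⟩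
  · have hci : cc i = 1 := by simp [cc, show (i : ℕ) ≠ 320 by omega]
    have hcj : cc j = 1 := by simp [cc, show (j : ℕ) ≠ 320 by omega]
    rw [hdiag i hi, hdiag j hj, hQij i j hi, if_neg hne, hci, hcj]
    ring
  · have hci : cc i = tt := by simp [cc, hi]
    have hcj : cc j = 1 := by simp [cc, show (j : ℕ) ≠ 320 by omega]
    rw [hlast i hi, hdiag j hj, mQ_symm, hQij j i hj, if_neg (Ne.symm hne), hci, hcj, hadjs]
    have := tt_eq
    nlinarith
  · have hci : cc i = 1 := by simp [cc, show (i : ℕ) ≠ 320 by omega]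
    have hcj : cc j = tt := by simp [cc, hj]
    rw [hdiag i hi, hlast j hj, hQij i j hi, if_neg hne, hci, hcj]
    have := tt_eq
    nlinarith

/-- The isometric identification of the 63 dimensional subspace with Euclidean space. -/
def phi : sS ≃ₗᵢ[ℝ] EuclideanSpace ℝ (Fin 63) :=
  ((stdOrthonormalBasis ℝ sS).reindex (finCongr finrank_sS)).repr

/-- The final point configuration. -/
def pt (j : Fin 321) : EuclideanSpace ℝ (Fin 63) := phi ⟨vec j, vec_mem j⟩

/-- The common large distance. -/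
def dd : ℝ := Real.sqrt (192 * 64)

theorem dd_pos : 0 < dd := Real.sqrt_pos.mpr (by norm_num)

theorem pt_dist (i j : Fin 321) : dist (pt i) (pt j) = ‖vec i - vec j‖ := by
  rw [pt, pt, LinearIsometryEquiv.dist_map, Subtype.dist_eq, dist_eq_norm]

theorem pt_far (i j : Fin 321) (hij : i ≠ j) (h : adT i j = 0) : dist (pt i) (pt j) = dd := by
  rw [pt_dist]
  have h1 := vec_dist_sq i j hij
  rw [h] at h1
  simp only [Nat.cast_zero, mul_zero, zero_mul, sub_zero] at h1
  rw [dd, ← h1, Real.sqrt_sq (norm_nonneg _)]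

theorem pt_near (i j : Fin 321) (hij : i ≠ j) (h : adT i j = 1) : dist (pt i) (pt j) < dd := by
  rw [pt_dist]
  have h1 := vec_dist_sq i j hij
  rw [h] at h1
  have hc := mul_pos (cc_pos i) (cc_pos j)
  rw [dd]
  apply Real.lt_sqrt_of_sq_lt
  rw [h1]
  push_cast
  nlinarith

/-- The abstract counting argument. -/
theorem borsuk_abstract {E : Type*} [MetricSpace E] (P : Fin 321 → E) (D : ℝ) (hD : 0 < D)
    (near : Fin 321 → Fin 321 → Prop)
    (hfar : ∀ i j, i ≠ j → ¬ near i j → dist (P i) (P j) = D)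
    (hnear : ∀ i j, i ≠ j → near i j → dist (P i) (P j) < D)
    (hex : ∃ i j, i ≠ j ∧ ¬ near i j)
    (hcl : ∀ Q : Finset (Fin 321), Q.card = 6 → ∃ u ∈ Q, ∃ v ∈ Q, u ≠ v ∧ ¬ near u v) :
    (Set.range P).Finite ∧ 0 < Metric.diam (Set.range P) ∧
      ¬ ∃ c : Fin 64 → Set E, (⋃ i, c i) = Set.range P ∧
        ∀ i, Metric.diam (c i) < Metric.diam (Set.range P) := by
  have hfin : (Set.range P).Finite := Set.finite_range P
  have hbdd : Bornology.IsBounded (Set.range P) := hfin.isBounded
  have hdiam : Metric.diam (Set.range P) = D := by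
    apply le_antisymm
    · apply Metric.diam_le_of_forall_dist_le hD.le
      rintro _ ⟨i, rfl⟩ _ ⟨j, rfl⟩
      by_cases hij : i = j
      · subst hij
        simp [hD.le]
      · by_cases hn : near i j
        · exact (hnear i j hij hn).le
        · exact (hfar i j hij hn).le
    · obtain ⟨i, j, hij, hn⟩ := hex
      rw [← hfar i j hij hn]
      exact Metric.dist_le_diam_of_mem hbdd ⟨i, rfl⟩ ⟨j, rfl⟩
  refine ⟨hfin, by rw [hdiam]; exact hD, ?_⟩
  rintro ⟨c, hU, hc⟩
  rw [hdiam] at hc
  have hex2 : ∀ j : Fin 321, ∃ i, P j ∈ c i := by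
    intro j
    have : P j ∈ ⋃ i, c i := by rw [hU]; exact ⟨j, rfl⟩
    exact Set.mem_iUnion.mp this
  choose f hf using hex2
  obtain ⟨i0, -, hcard⟩ := Finset.exists_lt_card_fiber_of_mul_lt_card_of_maps_to
    (s := (Finset.univ : Finset (Fin 321))) (t := (Finset.univ : Finset (Fin 64))) (f := f)
    (n := 5) (fun a _ => Finset.mem_univ _) (by simp)
  obtain ⟨Q, hQsub, hQcard⟩ := Finset.exists_subset_card_eq (s := Finset.univ.filter fun x => f x = i0)
    (n := 6) (by omega)
  obtain ⟨u, hu, v, hv, huv, hnuv⟩ := hcl Q hQcard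
  have hdist := hfar u v huv hnuv
  have hfu : f u = i0 := (Finset.mem_filter.mp (hQsub hu)).2
  have hfv : f v = i0 := (Finset.mem_filter.mp (hQsub hv)).2
  have hsub : c i0 ⊆ Set.range P := by
    rw [← hU]
    exact Set.subset_iUnion c i0
  have hbd : Bornology.IsBounded (c i0) := hbdd.subset hsub
  have h1 : dist (P u) (P v) ≤ Metric.diam (c i0) :=
    Metric.dist_le_diam_of_mem hbd (hfu ▸ hf u) (hfv ▸ hf v)
  have h2 := hc i0
  linarith

theorem far_pair : adT 0 5 = 0 := by decide +kernel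

/-- The main theorem of this development. -/
theorem main_result :
    ∃ Y : Set (EuclideanSpace ℝ (Fin 63)), Y.Finite ∧ 0 < Metric.diam Y ∧
      ¬ ∃ c : Fin 64 → Set (EuclideanSpace ℝ (Fin 63)), (⋃ i, c i) = Y ∧
        ∀ i, Metric.diam (c i) < Metric.diam Y := by
  refine ⟨Set.range pt, ?_⟩
  refine borsuk_abstract pt dd dd_pos (fun i j => adT i j = 1) ?_ ?_ ?_ ?_
  · intro i j hij hn
    apply pt_far i j hij
    have := adT_le_one i j
    omega
  · intro i j hij hn
    exact pt_near i j hij hn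
  · refine ⟨0, 5, by decide, ?_⟩
    show ¬ adT 0 5 = 1
    rw [far_pair]
    norm_num
  · intro Q hQ
    by_contra hcon
    push_neg at hcon
    refine no_six_clique (Q.map ⟨fun x : Fin 321 => (x : ℕ), Fin.val_injective⟩) ?_ ?_ ?_
    · rw [Finset.card_map, hQ]
    · intro u hu
      obtain ⟨x, -, rfl⟩ := Finset.mem_map.mp hu
      exact x.2
    · intro u hu v hv huv
      obtain ⟨x, hx, rfl⟩ := Finset.mem_map.mp hu
      obtain ⟨y, hy, rfl⟩ := Finset.mem_map.mp hv
      exact hcon x hx y hy (fun e => huv (by rw [e]))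

end

end Vale.Agent.P052
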